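import Vale.Agent.P224.POS.Psd

/-!
Certificate data: Gram matrices 4,5,6 and their positive semidefiniteness.
-/

namespace Vale.Agent.P224.POS.M8

open Vale.Agent.P224.POS

noncomputable section

/-- Gram matrix of block 4 ((u1-E)*sca00), rows of the lower triangle -/
def G4 : List (List Int) := rowsZ 34359738368 [
  27960479184,
  1117860559029827115896,
  39939540479956136078075690439412] 0

/-- witness of block 4 -/
def W4 : List (List Nat) := rowsN 262144 [
  234777,
  60183075596,
  9496373560872788] 0

set_option maxRecDepth 100000 in
theorem psd4 : psdChk 131072 1 6471644 W4 G4 = true := by decide +kernel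

/-- Gram matrix of block 5 ((u1-E)*sca10), rows of the lower triangle -/
def G5 : List (List Int) := rowsZ 268435456 [
  233667728] 0

/-- witness of block 5 -/
def W5 : List (List Nat) := rowsN 16384 [
  14499] 0

set_option maxRecDepth 100000 in
theorem psd5 : psdChk 8192 1 29834999 W5 G5 = true := by decide +kernel

/-- Gram matrix of block 6 ((u1-E)*sca11), rows of the lower triangle -/
def G6 : List (List Int) := rowsZ 134217728 [
  110253864] 0

/-- witness of block 6 -/
def W6 : List (List Nat) := rowsN 16384 [
  12346] 0

set_option maxRecDepth 100000 in
theorem psd6 : psdChk 8192 1 12943499 W6 G6 = true := by decide +kernel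

end

end Vale.Agent.P224.POS.M8
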