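import Vale.Agent.P224.POS.M8.Rows
import Vale.Agent.P224.POS.LawNumM
import Mathlib.Analysis.Real.Pi.Bounds

/-!
The numerical law of the certificate in dimension 8.
-/

namespace Vale.Agent.P224.POS.M8

open Vale.Agent.P224.UE

/-- **The numerical law.** -/
theorem hneg {γ : ℝ} (hγ : γ ≤ 5303 / 10000) : ∀ Θ u r : ℝ, 6 / 5 ≤ Θ → Θ < 35 / 24 → 0 ≤ u →
    Θ ^ 2 * u ≤ 1 → u ^ 2 ≤ r → r ≤ u →
      Θ * (1 + γ * u + (0 + (0 + (-(418251663 / 134217728)) + (376181125 / 134217728)) * u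
        + ((-(122306567 / 67108864)) + (43720705 / 67108864)) * r
        + ((5292963 / 33554432) + 0) * u ^ 2
        + 0 * ((u - r) / (2 * ((4 : ℕ) : ℝ) + 1))))
        + (gam 4 4)⁻¹ * rvalM (2 * 4) (rl 671088640000 rows) u r < 35 / 24 := by
  intro Θ u r h1 h2 hu hT hr1 hr2
  have hg : (gam 4 4)⁻¹ = 35 / 2 := by norm_num [gam]
  have hr : rvalM (2 * 4) (rl 671088640000 rows) u r = -(6729263 / 268435456) * u + 26195287 / 268435456 * r := rval_eq u r
  rw [hg, hr]
  refine law_negM_S (Cl := 35 / 24) (Cu := 35 / 24) (γu := 5303 / 10000)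
    (φ1 := 35 / 2 * (-(6729263 / 268435456))) (φ2 := 35 / 2 * (26195287 / 268435456))
    (by linarith) (by linarith) hγ (by norm_num) (by norm_num) (by norm_num) ?_ ?_
    h1 h2 hu hT hr1 hr2 (by ring)
  · intro T hT1 hT2
    exact quintic_neg (by norm_num) (by norm_num) (by norm_num) (by norm_num) (by norm_num)
      (by norm_num) (by norm_num) (le_of_eq rfl) (le_of_eq rfl) (le_of_eq rfl) (le_of_eq rfl)
      (le_of_eq rfl) (le_of_eq rfl) hT1 hT2
  · intro T hT1 hT2
    exact quintic_neg (by norm_num) (by norm_num) (by norm_num) (by norm_num) (by norm_num)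
      (by norm_num) (by norm_num) (le_of_eq rfl) (le_of_eq rfl) (le_of_eq rfl) (le_of_eq rfl)
      (le_of_eq rfl) (le_of_eq rfl) hT1 hT2

end Vale.Agent.P224.POS.M8
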